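import Mathlib

open Filter Topology MeasureTheory
open scoped NNReal ENNReal

namespace Vale.Agent.P124.R2

section Curve

variable {E : ℕ → Type*} [∀ i, NormedAddCommGroup (E i)] [∀ i, NormedSpace ℝ (E i)]

omit [∀ i, NormedSpace ℝ (E i)] in
/-- finite partial sums of norms are bounded by the `l1` norm -/
theorem sum_norm_le_lp_one (x : lp E 1) (s : Finset ℕ) : ∑ k ∈ s, ‖x k‖ ≤ ‖x‖ := by
  have h := lp.sum_rpow_le_norm_rpow (p := 1) (by simp) x s
  simpa using h

omit [∀ i, NormedSpace ℝ (E i)] in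
theorem lipschitz_coord {X : Type*} [PseudoEMetricSpace X] {γ : X → lp E 1} {L : ℝ≥0}
    (hγ : LipschitzWith L γ) (k : ℕ) : LipschitzWith L (fun s => γ s k) := by
  have h := (lp.lipschitzWith_one_eval (E := E) 1 k).comp hγ
  rw [one_mul] at h
  exact h

/-- If all coordinates of a Lipschitz curve in `l1(E)` are differentiable at `s`, the partial sums
of the norms of the coordinate derivatives are at most the Lipschitz constant. -/
theorem sum_norm_deriv_le {γ : ℝ → lp E 1} {L : ℝ≥0} (hγ : LipschitzWith L γ) (s : ℝ)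
    (hs : ∀ k, DifferentiableAt ℝ (fun u => γ u k) s) (F : Finset ℕ) :
    ∑ k ∈ F, ‖deriv (fun u => γ u k) s‖ ≤ L := by
  have h1 : Tendsto (fun t : ℝ => ∑ k ∈ F, ‖t⁻¹ • (γ (s + t) k - γ s k)‖) (𝓝[≠] 0)
      (𝓝 (∑ k ∈ F, ‖deriv (fun u => γ u k) s‖)) := by
    apply tendsto_finsetSum
    intro k _
    exact ((hs k).hasDerivAt.tendsto_slope_zero).norm
  refine le_of_tendsto h1 ?_
  filter_upwards [self_mem_nhdsWithin] with t ht
  have ht0 : (0 : ℝ) < |t| := abs_pos.mpr ht
  calc ∑ k ∈ F, ‖t⁻¹ • (γ (s + t) k - γ s k)‖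
      = |t|⁻¹ * ∑ k ∈ F, ‖(γ (s + t) - γ s) k‖ := by
        rw [Finset.mul_sum]
        refine Finset.sum_congr rfl fun k _ => ?_
        rw [norm_smul, norm_inv, Real.norm_eq_abs]
        rfl
    _ ≤ |t|⁻¹ * ‖γ (s + t) - γ s‖ := by
        gcongr
        exact sum_norm_le_lp_one _ _
    _ ≤ |t|⁻¹ * (L * ‖(s + t) - s‖) := by
        gcongr
        exact hγ.norm_sub_le _ _
    _ = L := by
        rw [add_sub_cancel_left, Real.norm_eq_abs]
        field_simp

open Classical in
/-- The pointwise vector of coordinate derivatives of a curve in `l1(E)`. -/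
noncomputable def coordDeriv (γ : ℝ → lp E 1) (s : ℝ) : lp E 1 :=
  if h : Memℓp (fun k => deriv (fun u => γ u k) s) 1 then ⟨fun k => deriv (fun u => γ u k) s, h⟩
  else 0

omit [∀ i, NormedSpace ℝ (E i)] in
theorem memlp_of_sum_le {f : ∀ i, E i} {C : ℝ} (h : ∀ F : Finset ℕ, ∑ k ∈ F, ‖f k‖ ≤ C) :
    Memℓp f 1 := by
  apply memℓp_gen' (C := C)
  intro s
  simpa using h s

theorem coordDeriv_apply {γ : ℝ → lp E 1} {L : ℝ≥0} (hγ : LipschitzWith L γ) (s : ℝ)
    (hs : ∀ k, DifferentiableAt ℝ (fun u => γ u k) s) (k : ℕ) :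
    coordDeriv γ s k = deriv (fun u => γ u k) s := by
  have h : Memℓp (fun k => deriv (fun u => γ u k) s) 1 :=
    memlp_of_sum_le (sum_norm_deriv_le hγ s hs)
  simp only [coordDeriv, dif_pos h]

theorem norm_coordDeriv_le {γ : ℝ → lp E 1} {L : ℝ≥0} (hγ : LipschitzWith L γ) (s : ℝ)
    (hs : ∀ k, DifferentiableAt ℝ (fun u => γ u k) s) :
    ‖coordDeriv γ s‖ ≤ L := by
  apply lp.norm_le_of_forall_sum_le (by simp) L.coe_nonneg
  intro F
  simp only [ENNReal.toReal_one, Real.rpow_one]
  calc ∑ k ∈ F, ‖coordDeriv γ s k‖ = ∑ k ∈ F, ‖deriv (fun u => γ u k) s‖ :=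
        Finset.sum_congr rfl fun k _ => by rw [coordDeriv_apply hγ s hs k]
    _ ≤ L := sum_norm_deriv_le hγ s hs F

theorem coordDeriv_hasSum {γ : ℝ → lp E 1} {L : ℝ≥0} (hγ : LipschitzWith L γ) (s : ℝ)
    (hs : ∀ k, DifferentiableAt ℝ (fun u => γ u k) s) :
    HasSum (fun k => lp.singleContinuousLinearMap ℝ E 1 k (deriv (fun u => γ u k) s))
      (coordDeriv γ s) := by
  have h := lp.hasSum_single (p := 1) (by simp) (coordDeriv γ s)
  convert h using 2 with k
  rw [coordDeriv_apply hγ s hs k]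
  rfl

variable [∀ i, FiniteDimensional ℝ (E i)]

theorem ae_forall_coord_differentiableAt {γ : ℝ → lp E 1} {L : ℝ≥0} (hγ : LipschitzWith L γ) :
    ∀ᵐ s : ℝ, ∀ k, DifferentiableAt ℝ (fun u => γ u k) s := by
  rw [ae_all_iff]
  intro k
  exact (lipschitz_coord hγ k).ae_differentiableAt_real

theorem aestronglyMeasurable_coordDeriv {γ : ℝ → lp E 1} {L : ℝ≥0} (hγ : LipschitzWith L γ) :
    AEStronglyMeasurable (coordDeriv γ) volume := by
  have hE : ∀ i, CompleteSpace (E i) := fun i => FiniteDimensional.complete ℝ (E i)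
  apply aestronglyMeasurable_of_tendsto_ae (u := atTop)
    (f := fun (N : ℕ) (s : ℝ) => ∑ k ∈ Finset.range N,
      lp.singleContinuousLinearMap ℝ E 1 k (deriv (fun u => γ u k) s))
  · intro N
    refine Finset.aestronglyMeasurable_fun_sum _ fun k _ => ?_
    exact (lp.singleContinuousLinearMap ℝ E 1 k).continuous.comp_aestronglyMeasurable
      (stronglyMeasurable_deriv _).aestronglyMeasurable
  · filter_upwards [ae_forall_coord_differentiableAt hγ] with s hs
    exact (coordDeriv_hasSum hγ s hs).tendsto_sum_nat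

theorem locallyIntegrable_coordDeriv {γ : ℝ → lp E 1} {L : ℝ≥0} (hγ : LipschitzWith L γ) :
    LocallyIntegrable (coordDeriv γ) volume := by
  have h : MemLp (coordDeriv γ) ∞ volume := by
    refine memLp_top_of_bound (aestronglyMeasurable_coordDeriv hγ) L ?_
    filter_upwards [ae_forall_coord_differentiableAt hγ] with s hs
    exact norm_coordDeriv_le hγ s hs
  exact h.locallyIntegrable le_top

/-- Part A1. Lipschitz curves into an `l1`-sum of finite-dimensional spaces are differentiable
almost everywhere. -/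
theorem curve_ae_differentiable' {γ : ℝ → lp E 1} {L : ℝ≥0} (hγ : LipschitzWith L γ) :
    ∀ᵐ s : ℝ, HasDerivAt γ (coordDeriv γ s) s := by
  have hE : ∀ i, CompleteSpace (E i) := fun i => FiniteDimensional.complete ℝ (E i)
  have hint := locallyIntegrable_coordDeriv hγ
  have hii : ∀ a b : ℝ, IntervalIntegrable (coordDeriv γ) volume a b := fun a b =>
    intervalIntegrable_iff.mpr
      ((hint.integrableOn_isCompact isCompact_uIcc).mono_set Set.uIoc_subset_uIcc)
  set F : ℝ → lp E 1 := fun x => ∫ t in (0 : ℝ)..x, coordDeriv γ t with hF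
  have hbd : ∀ᵐ s : ℝ, ‖coordDeriv γ s‖ ≤ L := by
    filter_upwards [ae_forall_coord_differentiableAt hγ] with s hs
    exact norm_coordDeriv_le hγ s hs
  have hFd : ∀ᵐ s : ℝ, HasDerivAt F (coordDeriv γ s) s := by
    filter_upwards [_root_.LocallyIntegrable.ae_hasDerivAt_integral hint] with s hs
    exact hs 0
  have hFL : LipschitzWith L F := by
    apply LipschitzWith.of_dist_le_mul
    intro x y
    rw [dist_eq_norm, dist_eq_norm]
    have : F x - F y = ∫ t in y..x, coordDeriv γ t := by
      simp only [hF]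
      exact intervalIntegral.integral_interval_sub_left (hii _ _) (hii _ _)
    rw [this]
    apply intervalIntegral.norm_integral_le_of_norm_le_const_ae
    filter_upwards [hbd] with t ht _
    exact ht
  have hcoord : ∀ (k : ℕ) (b : ℝ), γ b k - F b k = γ 0 k - F 0 k := by
    intro k b
    set h : ℝ → E k := fun x => γ x k - F x k with hh
    have hL : LipschitzWith (L + L) h := (lipschitz_coord hγ k).sub (lipschitz_coord hFL k)
    have hac : AbsolutelyContinuousOnInterval h 0 b :=
      (hL.lipschitzOnWith (s := Set.uIcc 0 b)).absolutelyContinuousOnInterval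
    have hd : ∀ᵐ x, x ∈ Set.uIcc 0 b → HasDerivAt h 0 x := by
      filter_upwards [ae_forall_coord_differentiableAt hγ, hFd] with x hx hx2 _
      have h1 := (hx k).hasDerivAt
      have h2 : HasDerivAt (fun u => F u k) (coordDeriv γ x k) x :=
        (lp.evalCLM ℝ E 1 k).hasFDerivAt.comp_hasDerivAt x hx2
      rw [coordDeriv_apply hγ x hx k] at h2
      have h3 := h1.sub h2
      rw [sub_self] at h3
      exact h3
    obtain ⟨C, hC⟩ := hac.const_of_ae_hasDerivAt_zero hd
    have e1 := hC b Set.right_mem_uIcc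
    have e2 := hC 0 Set.left_mem_uIcc
    rw [hh] at e1 e2
    exact e1.trans e2.symm
  have hγF : γ = fun x => (γ 0 - F 0) + F x := by
    funext x
    apply lp.ext
    funext k
    have := hcoord k x
    rw [lp.coeFn_add, lp.coeFn_sub]
    simp only [Pi.add_apply, Pi.sub_apply]
    rw [← this]
    simp
  filter_upwards [hFd] with s hs
  exact (hs.const_add (γ 0 - F 0)).congr_of_eventuallyEq
    (Eventually.of_forall fun x => congrFun hγF x)

end Curve

/-- Part A1, in the form used by the team. -/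
theorem curve_ae_differentiable (E : ℕ → Type*) [∀ i, NormedAddCommGroup (E i)]
    [∀ i, NormedSpace ℝ (E i)] [∀ i, FiniteDimensional ℝ (E i)]
    (γ : ℝ → lp E 1) (L : ℝ≥0) (hγ : LipschitzWith L γ) :
    ∀ᵐ s : ℝ, DifferentiableAt ℝ γ s := by
  filter_upwards [curve_ae_differentiable' hγ] with s hs
  exact hs.differentiableAt

end Vale.Agent.P124.R2
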