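import Mathlib
import Vale.Agent.P124.R2.helper477.Curve

open Filter Topology MeasureTheory
open scoped NNReal ENNReal

namespace Vale.Agent.P124.R2

variable {E : ℕ → Type*} [∀ i, NormedAddCommGroup (E i)] [∀ i, NormedSpace ℝ (E i)]
  [∀ i, FiniteDimensional ℝ (E i)]

/-- Lipschitz maps from a finite-dimensional space into `l1(E)` are a.e. line differentiable in
every fixed direction. -/
theorem ae_lineDifferentiableAt_lp {n : ℕ} {G : (Fin n → ℝ) → lp E 1} {L : ℝ≥0}
    (hG : LipschitzWith L G) (v : Fin n → ℝ) :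
    ∀ᵐ z : Fin n → ℝ, LineDifferentiableAt ℝ G z v := by
  have hE : ∀ i, CompleteSpace (E i) := fun i => FiniteDimensional.complete ℝ (E i)
  let T : ℝ →L[ℝ] (Fin n → ℝ) := ContinuousLinearMap.smulRight (1 : ℝ →L[ℝ] ℝ) v
  suffices A : ∀ p, ∀ᵐ (t : ℝ) ∂volume, LineDifferentiableAt ℝ G (p + t • v) v from
    ae_mem_of_ae_add_linearMap_mem T.toLinearMap volume volume
      (measurableSet_lineDifferentiableAt hG.continuous) A
  intro p
  have : ∀ᵐ (s : ℝ), DifferentiableAt ℝ (fun t ↦ G (p + t • v)) s :=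
    curve_ae_differentiable E _ _ (hG.comp ((LipschitzWith.const p).add T.lipschitz))
  filter_upwards [this] with s hs
  have h's : DifferentiableAt ℝ (fun t ↦ G (p + t • v)) (s + 0) := by simpa using hs
  have : DifferentiableAt ℝ (fun t ↦ s + t) 0 := differentiableAt_id.const_add _
  simp only [LineDifferentiableAt]
  convert! h's.comp 0 this with _ t
  simp only [add_assoc, Function.comp_apply, add_smul]

theorem fd_ae_differentiable' {n : ℕ} {G : (Fin n → ℝ) → lp E 1} {L : ℝ≥0}
    (hG : LipschitzWith L G) : ∀ᵐ z : Fin n → ℝ, DifferentiableAt ℝ G z := by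
  obtain ⟨s, s_count, s_dense⟩ : ∃ (s : Set (Fin n → ℝ)), s.Countable ∧ Dense s :=
    TopologicalSpace.exists_countable_dense _
  have hs : Metric.sphere (0 : Fin n → ℝ) 1 ⊆ closure s := by
    rw [s_dense.closure_eq]; exact Set.subset_univ _
  have I1 : ∀ᵐ z : Fin n → ℝ, ∀ v ∈ s, LineDifferentiableAt ℝ G z v :=
    (ae_ball_iff s_count).2 fun v _ => ae_lineDifferentiableAt_lp hG v
  have I2 : ∀ᵐ z : Fin n → ℝ, ∀ i : Fin n, LineDifferentiableAt ℝ G z (Pi.single i 1) :=
    ae_all_iff.2 fun i => ae_lineDifferentiableAt_lp hG _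
  have I3 : ∀ᵐ z : Fin n → ℝ, ∀ k, DifferentiableAt ℝ (fun y => G y k) z :=
    ae_all_iff.2 fun k => (lipschitz_coord hG k).ae_differentiableAt
  filter_upwards [I1, I2, I3] with z h1 h2 h3
  let B : (Fin n → ℝ) →ₗ[ℝ] lp E 1 :=
    { toFun := fun v => ∑ i, v i • lineDeriv ℝ G z (Pi.single i 1)
      map_add' := by
        intro v w
        simp only [Pi.add_apply, add_smul, Finset.sum_add_distrib]
      map_smul' := by
        intro c v
        simp only [Pi.smul_apply, smul_eq_mul, mul_smul, Finset.smul_sum, RingHom.id_apply] }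
  let D : (Fin n → ℝ) →L[ℝ] lp E 1 := LinearMap.toContinuousLinearMap B
  have hcoord : ∀ (v : Fin n → ℝ), LineDifferentiableAt ℝ G z v → ∀ k,
      (lineDeriv ℝ G z v) k = fderiv ℝ (fun y => G y k) z v := by
    intro v hv k
    have e1 : HasLineDerivAt ℝ (fun y => G y k) ((lineDeriv ℝ G z v) k) z v := by
      have := hv.hasLineDerivAt
      unfold HasLineDerivAt at this ⊢
      exact (lp.evalCLM ℝ E 1 k).hasFDerivAt.comp_hasDerivAt (0 : ℝ) this
    have e2 : HasLineDerivAt ℝ (fun y => G y k) (fderiv ℝ (fun y => G y k) z v) z v :=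
      (h3 k).hasFDerivAt.hasLineDerivAt v
    exact e1.unique e2
  have key : ∀ v ∈ s, HasLineDerivAt ℝ G (D v) z v := by
    intro v hv
    have e : D v = lineDeriv ℝ G z v := by
      apply lp.ext
      funext k
      have hD : (D v) k = ∑ i, v i • (lineDeriv ℝ G z (Pi.single i 1)) k := by
        change (lp.evalCLM ℝ E 1 k) (∑ i, v i • lineDeriv ℝ G z (Pi.single i 1)) = _
        rw [map_sum]
        refine Finset.sum_congr rfl fun i _ => ?_
        rw [map_smul]
        rfl
      rw [hD, hcoord v (h1 v hv) k]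
      have e3 : ∀ i, (lineDeriv ℝ G z (Pi.single i 1)) k =
          fderiv ℝ (fun y => G y k) z (Pi.single i 1) := fun i => hcoord _ (h2 i) k
      simp only [e3]
      have hv2 : v = ∑ i, v i • (Pi.single i (1 : ℝ) : Fin n → ℝ) := by
        funext j
        rw [Finset.sum_apply]
        simp [Pi.single_apply]
      conv_rhs => rw [hv2]
      rw [map_sum]
      refine Finset.sum_congr rfl fun i _ => ?_
      rw [map_smul]
    rw [e]
    exact (h1 v hv).hasLineDerivAt
  exact (hG.hasFDerivAt_of_hasLineDerivAt_of_closure hs key).differentiableAt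

/-- Part A2, in the form used by the team. -/
theorem fd_ae_differentiable (E : ℕ → Type*) [∀ i, NormedAddCommGroup (E i)]
    [∀ i, NormedSpace ℝ (E i)] [∀ i, FiniteDimensional ℝ (E i)]
    (n : ℕ) (G : (Fin n → ℝ) → lp E 1) (L : ℝ≥0) (hG : LipschitzWith L G) :
    ∀ᵐ z : Fin n → ℝ, DifferentiableAt ℝ G z :=
  fd_ae_differentiable' hG

end Vale.Agent.P124.R2
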