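import Mathlib

open Filter Topology

namespace Vale.Agent.P124.R2.Clip

/-- increments of a sequence clipped at `ρ` -/
noncomputable def cl (T : ℕ → ℝ) (ρ : ℝ) (n : ℕ) : ℝ := min (T n) ρ - min (T (n + 1)) ρ

theorem cl_nonneg {T : ℕ → ℝ} (hT : Antitone T) (ρ : ℝ) (n : ℕ) : 0 ≤ cl T ρ n := by
  unfold cl
  have : min (T (n + 1)) ρ ≤ min (T n) ρ := min_le_min_right _ (hT (Nat.le_succ n))
  linarith

theorem sum_cl (T : ℕ → ℝ) (ρ : ℝ) (N : ℕ) :
    ∑ n ∈ Finset.range N, cl T ρ n = min (T 0) ρ - min (T N) ρ := by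
  unfold cl
  exact Finset.sum_range_sub' (fun n => min (T n) ρ) N

theorem hasSum_cl {T : ℕ → ℝ} (hT : Antitone T) (h0 : Tendsto T atTop (𝓝 0)) {ρ : ℝ}
    (hρ : 0 ≤ ρ) : HasSum (cl T ρ) (min (T 0) ρ) := by
  rw [hasSum_iff_tendsto_nat_of_nonneg (cl_nonneg hT ρ)]
  simp only [sum_cl]
  have h1 : Tendsto (fun n => min (T n) ρ) atTop (𝓝 (min 0 ρ)) := h0.min tendsto_const_nhds
  rw [min_eq_left hρ] at h1
  simpa using (tendsto_const_nhds (x := min (T 0) ρ)).sub h1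

theorem cl_ne_zero {T : ℕ → ℝ} {ρ : ℝ} {n : ℕ} (hT : Antitone T) (h : cl T ρ n ≠ 0) :
    T (n + 1) < ρ := by
  by_contra hc
  push Not at hc
  apply h
  unfold cl
  rw [min_eq_right hc, min_eq_right (hc.trans (hT (Nat.le_succ n))), sub_self]

theorem abs_sub_le_two {y d : ℝ} (h : y ≤ d) (hd : 0 ≤ d) : |y| ≤ 2 * d - y := by
  rcases abs_cases y with h1 | h1 <;> linarith

theorem cl_sub_le {T M : ℕ → ℝ} {ρ : ℝ} {n : ℕ}
    (h1 : M n - M (n + 1) ≤ T n - T (n + 1)) (h0 : 0 ≤ M n - M (n + 1)) (h2 : M (n + 1) ≤ T (n + 1)) :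
    cl T ρ n - cl M ρ n ≤ (T n - T (n + 1)) - (M n - M (n + 1)) := by
  unfold cl
  rcases min_cases (T n) ρ with a | a <;> rcases min_cases (T (n + 1)) ρ with b | b <;>
  rcases min_cases (M n) ρ with c | c <;> rcases min_cases (M (n + 1)) ρ with d | d <;>
  linarith [a.1, a.2, b.1, b.2, c.1, c.2, d.1, d.2]

/-- comparison of the clipped increments of two sequences, one having larger increments -/
theorem tv_dominated {T M : ℕ → ℝ} {ρ : ℝ}
    (h1 : ∀ n, M n - M (n + 1) ≤ T n - T (n + 1)) (h0 : ∀ n, 0 ≤ M n - M (n + 1))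
    (h2 : ∀ n, M n ≤ T n) (N : ℕ) :
    ∑ n ∈ Finset.range N, |cl T ρ n - cl M ρ n| ≤ 2 * (T 0 - M 0) := by
  have e1 : ∑ n ∈ Finset.range N, |cl T ρ n - cl M ρ n| ≤
      ∑ n ∈ Finset.range N, (2 * ((T n - T (n + 1)) - (M n - M (n + 1)))
        - (cl T ρ n - cl M ρ n)) := by
    refine Finset.sum_le_sum fun n _ => ?_
    exact abs_sub_le_two (cl_sub_le (h1 n) (h0 n) (h2 (n + 1))) (by linarith [h1 n])
  have e2 : ∑ n ∈ Finset.range N, (2 * ((T n - T (n + 1)) - (M n - M (n + 1)))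
        - (cl T ρ n - cl M ρ n)) =
      2 * ((T 0 - T N) - (M 0 - M N)) -
        ((min (T 0) ρ - min (T N) ρ) - (min (M 0) ρ - min (M N) ρ)) := by
    rw [← sum_cl T ρ N, ← sum_cl M ρ N, ← Finset.sum_range_sub' T N, ← Finset.sum_range_sub' M N]
    simp only [Finset.mul_sum, ← Finset.sum_sub_distrib]
  have e3 : min (M 0) ρ ≤ min (T 0) ρ := min_le_min_right _ (h2 0)
  have e4 : min (T N) ρ - min (M N) ρ ≤ T N - M N := by
    rcases min_cases (T N) ρ with a | a <;> rcases min_cases (M N) ρ with b | b <;>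
    linarith [a.1, a.2, b.1, b.2, h2 N]
  linarith [h2 N]

/-- tails of a summable sequence -/
noncomputable def tail (a : ℕ → ℝ) (n : ℕ) : ℝ := (∑' k, a k) - ∑ k ∈ Finset.range n, a k

theorem tail_zero (a : ℕ → ℝ) : tail a 0 = ∑' k, a k := by simp [tail]

theorem tail_sub_succ (a : ℕ → ℝ) (n : ℕ) : tail a n - tail a (n + 1) = a n := by
  simp only [tail, Finset.sum_range_succ]
  ring

theorem tail_antitone {a : ℕ → ℝ} (ha : ∀ n, 0 ≤ a n) : Antitone (tail a) := by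
  apply antitone_nat_of_succ_le
  intro n
  linarith [tail_sub_succ a n, ha n]

theorem tail_nonneg {a : ℕ → ℝ} (ha : ∀ n, 0 ≤ a n) (hs : Summable a) (n : ℕ) : 0 ≤ tail a n := by
  have := hs.sum_le_tsum (Finset.range n) (fun i _ => ha i)
  simp only [tail]
  linarith

theorem tail_tendsto {a : ℕ → ℝ} (hs : Summable a) : Tendsto (tail a) atTop (𝓝 0) := by
  have := (tendsto_const_nhds (x := ∑' k, a k)).sub hs.hasSum.tendsto_sum_nat
  rw [sub_self] at this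
  exact this

theorem tail_mono {a b : ℕ → ℝ} (ha : Summable a) (hb : Summable b) (h : ∀ n, a n ≤ b n) (n : ℕ) :
    tail a n ≤ tail b n := by
  have h1 : 0 ≤ tail (fun k => b k - a k) n :=
    tail_nonneg (fun k => by linarith [h k]) (hb.sub ha) n
  have h2 : tail (fun k => b k - a k) n = tail b n - tail a n := by
    simp only [tail, Summable.tsum_sub hb ha, Finset.sum_sub_distrib]
    ring
  linarith

theorem tv_general {a b : ℕ → ℝ} (ha : ∀ n, 0 ≤ a n) (hb : ∀ n, 0 ≤ b n) (sa : Summable a)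
    (sb : Summable b) (ρ : ℝ) (N : ℕ) :
    ∑ n ∈ Finset.range N, |cl (tail a) ρ n - cl (tail b) ρ n| ≤ 2 * ∑' k, |a k - b k| := by
  set m : ℕ → ℝ := fun n => min (a n) (b n) with hm
  have sm : Summable m := Summable.of_nonneg_of_le (fun n => le_min (ha n) (hb n))
    (fun n => min_le_left _ _) sa
  have hm0 : ∀ n, 0 ≤ m n := fun n => le_min (ha n) (hb n)
  have t1 := tv_dominated (T := tail a) (M := tail m) (ρ := ρ)
    (fun n => by rw [tail_sub_succ, tail_sub_succ]; exact min_le_left _ _)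
    (fun n => by rw [tail_sub_succ]; exact hm0 n)
    (fun n => tail_mono sm sa (fun k => min_le_left _ _) n) N
  have t2 := tv_dominated (T := tail b) (M := tail m) (ρ := ρ)
    (fun n => by rw [tail_sub_succ, tail_sub_succ]; exact min_le_right _ _)
    (fun n => by rw [tail_sub_succ]; exact hm0 n)
    (fun n => tail_mono sm sb (fun k => min_le_right _ _) n) N
  have t3 : ∑ n ∈ Finset.range N, |cl (tail a) ρ n - cl (tail b) ρ n| ≤
      ∑ n ∈ Finset.range N, |cl (tail a) ρ n - cl (tail m) ρ n| +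
      ∑ n ∈ Finset.range N, |cl (tail b) ρ n - cl (tail m) ρ n| := by
    rw [← Finset.sum_add_distrib]
    refine Finset.sum_le_sum fun n _ => ?_
    have := abs_sub_le (cl (tail a) ρ n) (cl (tail m) ρ n) (cl (tail b) ρ n)
    rw [abs_sub_comm (cl (tail m) ρ n) (cl (tail b) ρ n)] at this
    exact this
  have t4 : ∑' k, |a k - b k| = (∑' k, a k) + (∑' k, b k) - 2 * ∑' k, m k := by
    rw [← tsum_mul_left, ← Summable.tsum_add sa sb, ← Summable.tsum_sub (sa.add sb) (sm.mul_left 2)]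
    refine tsum_congr fun k => ?_
    simp only [hm]
    rcases min_cases (a k) (b k) with c | c <;> rcases abs_cases (a k - b k) with d | d <;>
      linarith [c.1, c.2, d.1, d.2]
  rw [tail_zero, tail_zero] at t1 t2
  rw [t4]
  linarith

theorem cl_mono_rho {T : ℕ → ℝ} (hT : Antitone T) {ρ ρ' : ℝ} (h : ρ' ≤ ρ) (n : ℕ) :
    cl T ρ' n ≤ cl T ρ n := by
  have h1 := hT (Nat.le_succ n)
  unfold cl
  rcases min_cases (T n) ρ with a | a <;> rcases min_cases (T (n + 1)) ρ with b | b <;>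
  rcases min_cases (T n) ρ' with c | c <;> rcases min_cases (T (n + 1)) ρ' with d | d <;>
  linarith [a.1, a.2, b.1, b.2, c.1, c.2, d.1, d.2]

theorem tv_scale {T : ℕ → ℝ} (hT : Antitone T) {ρ ρ' : ℝ} (h0 : 0 < ρ')
    (h : ρ' ≤ ρ) (hT0 : ∀ n, 0 ≤ T n) (N : ℕ) :
    ∑ n ∈ Finset.range N, |cl T ρ n / ρ - cl T ρ' n / ρ'| ≤ 2 * (ρ - ρ') / ρ := by
  have hρ : 0 < ρ := lt_of_lt_of_le h0 h
  have hinv : ρ⁻¹ ≤ ρ'⁻¹ := inv_anti₀ h0 h
  have e1 : ∀ n, |cl T ρ n / ρ - cl T ρ' n / ρ'| ≤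
      (cl T ρ n - cl T ρ' n) * ρ⁻¹ + cl T ρ' n * (ρ'⁻¹ - ρ⁻¹) := by
    intro n
    have a1 := cl_mono_rho hT h n
    have a2 := cl_nonneg hT ρ' n
    have e : cl T ρ n / ρ - cl T ρ' n / ρ' =
        (cl T ρ n - cl T ρ' n) * ρ⁻¹ - cl T ρ' n * (ρ'⁻¹ - ρ⁻¹) := by
      rw [div_eq_mul_inv, div_eq_mul_inv]
      ring
    rw [e]
    have b1 : 0 ≤ (cl T ρ n - cl T ρ' n) * ρ⁻¹ := mul_nonneg (by linarith) (inv_nonneg.2 hρ.le)
    have b2 : 0 ≤ cl T ρ' n * (ρ'⁻¹ - ρ⁻¹) := mul_nonneg a2 (by linarith)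
    rw [abs_le]
    constructor <;> linarith
  refine (Finset.sum_le_sum fun n _ => e1 n).trans ?_
  rw [Finset.sum_add_distrib, ← Finset.sum_mul, ← Finset.sum_mul, Finset.sum_sub_distrib,
    sum_cl, sum_cl]
  have c1 : (min (T 0) ρ - min (T N) ρ) - (min (T 0) ρ' - min (T N) ρ') ≤ ρ - ρ' := by
    rcases min_cases (T 0) ρ with a | a <;> rcases min_cases (T N) ρ with b | b <;>
    rcases min_cases (T 0) ρ' with c | c <;> rcases min_cases (T N) ρ' with d | d <;>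
    linarith [a.1, a.2, b.1, b.2, c.1, c.2, d.1, d.2]
  have c2 : min (T 0) ρ' - min (T N) ρ' ≤ ρ' := by
    have : 0 ≤ min (T N) ρ' := le_min (hT0 N) h0.le
    linarith [min_le_right (T 0) ρ']
  have c3 : (min (T 0) ρ' - min (T N) ρ') * (ρ'⁻¹ - ρ⁻¹) ≤ ρ' * (ρ'⁻¹ - ρ⁻¹) :=
    mul_le_mul_of_nonneg_right c2 (by linarith)
  have c4 : ((min (T 0) ρ - min (T N) ρ) - (min (T 0) ρ' - min (T N) ρ')) * ρ⁻¹ ≤
      (ρ - ρ') * ρ⁻¹ := mul_le_mul_of_nonneg_right c1 (inv_nonneg.2 hρ.le)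
  have c5 : ρ' * (ρ'⁻¹ - ρ⁻¹) = (ρ - ρ') * ρ⁻¹ := by
    field_simp
  calc _ ≤ (ρ - ρ') * ρ⁻¹ + (ρ - ρ') * ρ⁻¹ := by linarith
    _ = 2 * (ρ - ρ') / ρ := by rw [div_eq_mul_inv]; ring

end Vale.Agent.P124.R2.Clip
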