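import Mathlib
import Vale.Agent.P124.R2.helper477.Curve

open Filter Topology
open scoped NNReal ENNReal

namespace Vale.Agent.P124.R2

variable {Z : Type*} [NormedAddCommGroup Z] [NormedSpace ℝ Z]

/-- The `l1`-sum of a sequence of subspaces of `Z`. -/
abbrev L1 (V : ℕ → Submodule ℝ Z) : Type _ := lp (fun k => V k) 1

variable {V : ℕ → Submodule ℝ Z}

theorem L1.summable_norm (x : L1 V) : Summable fun k => ‖x k‖ := by
  have := (lp.memℓp x).summable (by simp)
  simpa using this

theorem L1.norm_eq (x : L1 V) : ‖x‖ = ∑' k, ‖x k‖ := by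
  have := lp.norm_eq_tsum_rpow (p := 1) (by simp) x
  simpa using this

variable [CompleteSpace Z]

theorem L1.summable_coe (x : L1 V) : Summable fun k => ((x k : V k) : Z) :=
  Summable.of_norm (by simpa using L1.summable_norm x)

variable (V) in
/-- The sum map `l1(V k) → Z`. -/
noncomputable def sumCLM : L1 V →L[ℝ] Z :=
  LinearMap.mkContinuous
    { toFun := fun x => ∑' k, ((x k : V k) : Z)
      map_add' := by
        intro x y
        rw [← (L1.summable_coe x).tsum_add (L1.summable_coe y)]
        refine tsum_congr fun k => ?_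
        simp
      map_smul' := by
        intro c x
        rw [RingHom.id_apply, ← (L1.summable_coe x).tsum_const_smul c]
        refine tsum_congr fun k => ?_
        simp } 1 (by
      intro x
      rw [one_mul, L1.norm_eq]
      refine (norm_tsum_le_tsum_norm (by simpa using L1.summable_norm x)).trans ?_
      simp)

theorem sumCLM_apply (x : L1 V) : sumCLM V x = ∑' k, ((x k : V k) : Z) := rfl

theorem norm_sumCLM_le (x : L1 V) : ‖sumCLM V x‖ ≤ ‖x‖ := by
  rw [L1.norm_eq, sumCLM_apply]
  refine (norm_tsum_le_tsum_norm (by simpa using L1.summable_norm x)).trans ?_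
  simp

theorem sumCLM_single (n : ℕ) (v : V n) : sumCLM V (lp.single 1 n v) = (v : Z) := by
  rw [sumCLM_apply, tsum_eq_single n]
  · simp
  · intro k hk
    simp [hk]

/-- head of `x` up to level `n` -/
noncomputable def head (n : ℕ) (x : L1 V) : L1 V :=
  ∑ k ∈ Finset.range (n + 1), lp.single 1 k (x k)

/-- partial sums in `Z` -/
def psum (n : ℕ) (x : L1 V) : Z := ∑ k ∈ Finset.range (n + 1), ((x k : V k) : Z)

omit [CompleteSpace Z] in
theorem psum_mem (hV : Monotone V) (n : ℕ) (x : L1 V) : psum n x ∈ V n := by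
  refine Submodule.sum_mem _ fun k hk => ?_
  exact hV (Nat.lt_succ_iff.1 (Finset.mem_range.1 hk)) (x k).2

theorem sumCLM_head (n : ℕ) (x : L1 V) : sumCLM V (head n x) = psum n x := by
  simp only [head, map_sum, sumCLM_single, psum]

omit [CompleteSpace Z] in
theorem norm_sub_head (n : ℕ) (x : L1 V) :
    ‖x - head n x‖ = ‖x‖ - ∑ k ∈ Finset.range (n + 1), ‖x k‖ := by
  have := lp.norm_compl_sum_single (p := 1) (by simp) x (Finset.range (n + 1))
  simpa [head] using this

theorem norm_psum_le (n : ℕ) (x : L1 V) :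
    ‖psum n x‖ ≤ ‖sumCLM V x‖ + (‖x‖ - ∑ k ∈ Finset.range (n + 1), ‖x k‖) := by
  have h1 : psum n x = sumCLM V x - sumCLM V (x - head n x) := by
    rw [map_sub, sumCLM_head]
    abel
  rw [h1, ← norm_sub_head]
  refine (norm_sub_le _ _).trans ?_
  gcongr
  exact norm_sumCLM_le _

/-- `cut n x - x` where `cut n x` follows `x` up to level `n` and then returns to `0`. -/
noncomputable def cutDiff (hV : Monotone V) (n : ℕ) (x : L1 V) : L1 V :=
  head n x - x - lp.single 1 n ⟨psum n x, psum_mem hV n x⟩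

theorem sumCLM_cutDiff (hV : Monotone V) (n : ℕ) (x : L1 V) :
    sumCLM V (cutDiff hV n x) = - sumCLM V x := by
  simp only [cutDiff, map_sub, sumCLM_head, sumCLM_single]
  abel

omit [CompleteSpace Z] in
theorem cutDiff_sub (hV : Monotone V) (n : ℕ) (x y : L1 V) :
    cutDiff hV n (x - y) = cutDiff hV n x - cutDiff hV n y := by
  have h1 : head n (x - y) = head n x - head n y := by
    simp only [head, ← Finset.sum_sub_distrib]
    refine Finset.sum_congr rfl fun k _ => ?_
    rw [← lp.single_sub]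
    rfl
  have h2 : (⟨psum n (x - y), psum_mem hV n (x - y)⟩ : V n) =
      ⟨psum n x, psum_mem hV n x⟩ - ⟨psum n y, psum_mem hV n y⟩ := by
    apply Subtype.ext
    simp only [psum, AddSubgroupClass.coe_sub, ← Finset.sum_sub_distrib]
    rfl
  simp only [cutDiff, h1, h2, lp.single_sub]
  abel

theorem norm_cutDiff_le' (hV : Monotone V) (n : ℕ) (x : L1 V) :
    ‖cutDiff hV n x‖ ≤ ‖sumCLM V x‖ +
      2 * (‖x‖ - ∑ k ∈ Finset.range (n + 1), ‖x k‖) := by
  have h1 : ‖cutDiff hV n x‖ ≤ ‖x - head n x‖ + ‖psum n x‖ := by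
    unfold cutDiff
    refine (norm_sub_le _ _).trans ?_
    rw [norm_sub_rev (head n x) x, lp.norm_single (by simp)]
    rfl
  rw [norm_sub_head] at h1
  linarith [norm_psum_le n x]

omit [CompleteSpace Z] in
theorem norm_cutDiff_le (hV : Monotone V) (n : ℕ) (x : L1 V) :
    ‖cutDiff hV n x‖ ≤ ‖x‖ := by
  have h1 : ‖cutDiff hV n x‖ ≤ ‖x - head n x‖ + ‖psum n x‖ := by
    unfold cutDiff
    refine (norm_sub_le _ _).trans ?_
    rw [norm_sub_rev (head n x) x, lp.norm_single (by simp)]
    rfl
  have h2 : ‖psum n x‖ ≤ ∑ k ∈ Finset.range (n + 1), ‖x k‖ := by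
    unfold psum
    exact norm_sum_le _ _
  rw [norm_sub_head] at h1
  linarith

end Vale.Agent.P124.R2
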