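import Mathlib
import Vale.Agent.P124.R2.helper477.Clip
import Vale.Agent.P124.R2.helper477.SumMap

open Filter Topology
open scoped NNReal ENNReal

namespace Vale.Agent.P124.R2

open Clip

set_option linter.unusedSectionVars false

variable {Z : Type*} [NormedAddCommGroup Z] [NormedSpace ℝ Z] [CompleteSpace Z]
  {V : ℕ → Submodule ℝ Z}

/-- remaining variation of `x` from level `n` on -/
noncomputable def rem (x : L1 V) : ℕ → ℝ := tail fun k => ‖x k‖

omit [CompleteSpace Z] in
theorem rem_eq (x : L1 V) (n : ℕ) : rem x n = ‖x‖ - ∑ k ∈ Finset.range n, ‖x k‖ := by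
  rw [L1.norm_eq]; rfl

omit [CompleteSpace Z] in
theorem rem_zero (x : L1 V) : rem x 0 = ‖x‖ := by simp [rem_eq]

omit [CompleteSpace Z] in
theorem rem_antitone (x : L1 V) : Antitone (rem x) := tail_antitone fun _ => norm_nonneg _

omit [CompleteSpace Z] in
theorem rem_nonneg (x : L1 V) (n : ℕ) : 0 ≤ rem x n :=
  tail_nonneg (fun _ => norm_nonneg _) (L1.summable_norm x) n

omit [CompleteSpace Z] in
theorem rem_tendsto (x : L1 V) : Tendsto (rem x) atTop (𝓝 0) := tail_tendsto (L1.summable_norm x)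

omit [CompleteSpace Z] in
theorem rem_le_add (x y : L1 V) (n : ℕ) : rem y n ≤ rem x n + ‖x - y‖ := by
  have h1 : rem y n ≤ tail (fun k => ‖x k‖ + ‖(x - y) k‖) n := by
    refine tail_mono (L1.summable_norm y) ((L1.summable_norm x).add (L1.summable_norm (x - y)))
      (fun k => ?_) n
    have : ‖y k‖ = ‖x k - (x - y) k‖ := by
      congr 1
      simp
    rw [this]
    exact norm_sub_le _ _
  have h2 : tail (fun k => ‖x k‖ + ‖(x - y) k‖) n = rem x n + rem (x - y) n := by
    simp only [rem, tail, (L1.summable_norm x).tsum_add (L1.summable_norm (x - y)),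
      Finset.sum_add_distrib]
    ring
  have h3 : rem (x - y) n ≤ ‖x - y‖ := by
    rw [← rem_zero]
    exact rem_antitone _ (Nat.zero_le n)
  linarith

/-- weights -/
noncomputable def wt (x : L1 V) (n : ℕ) : ℝ := cl (rem x) ‖sumCLM V x‖ n / ‖sumCLM V x‖

theorem wt_nonneg (x : L1 V) (n : ℕ) : 0 ≤ wt x n :=
  div_nonneg (cl_nonneg (rem_antitone x) _ _) (norm_nonneg _)

theorem hasSum_wt (x : L1 V) : HasSum (wt x) (min ‖x‖ ‖sumCLM V x‖ / ‖sumCLM V x‖) := by
  have := (hasSum_cl (rem_antitone x) (rem_tendsto x) (norm_nonneg (sumCLM V x))).div_const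
    ‖sumCLM V x‖
  rwa [rem_zero] at this

theorem tsum_wt_smul (x : L1 V) : (∑' n, wt x n) • sumCLM V x = sumCLM V x := by
  rw [(hasSum_wt x).tsum_eq, min_eq_right (norm_sumCLM_le x)]
  by_cases h : sumCLM V x = 0
  · rw [h, smul_zero]
  · rw [div_self (norm_ne_zero_iff.2 h), one_smul]

theorem tsum_wt_le (x : L1 V) : ∑' n, wt x n ≤ 1 := by
  rw [(hasSum_wt x).tsum_eq, min_eq_right (norm_sumCLM_le x)]
  exact div_self_le_one _

theorem tsum_wt_of_pos {x : L1 V} (h : 0 < ‖sumCLM V x‖) : HasSum (wt x) 1 := by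
  have := hasSum_wt x
  rwa [min_eq_right (norm_sumCLM_le x), div_self h.ne'] at this

variable [∀ k, CompleteSpace (V k)] (hV : Monotone V)

theorem summable_wt_cut (x y : L1 V) : Summable fun n => wt x n • cutDiff hV n y := by
  refine Summable.of_norm_bounded (g := fun n => wt x n * ‖y‖) ((hasSum_wt x).summable.mul_right _)
    fun n => ?_
  rw [norm_smul, Real.norm_of_nonneg (wt_nonneg x n)]
  exact mul_le_mul_of_nonneg_left (norm_cutDiff_le hV n y) (wt_nonneg x n)

/-- the retraction -/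
noncomputable def retr (x : L1 V) : L1 V := x + ∑' n, wt x n • cutDiff hV n x

theorem sumCLM_retr (x : L1 V) : sumCLM V (retr hV x) = 0 := by
  unfold retr
  rw [map_add, (sumCLM V).map_tsum (summable_wt_cut hV x x)]
  have : ∀ n, sumCLM V (wt x n • cutDiff hV n x) = -(wt x n • sumCLM V x) := by
    intro n
    rw [map_smul, sumCLM_cutDiff, smul_neg]
  simp only [this]
  rw [tsum_neg, (hasSum_wt x).summable.tsum_smul_const, tsum_wt_smul]
  abel

theorem retr_eq_self {x : L1 V} (hx : sumCLM V x = 0) : retr hV x = x := by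
  unfold retr
  have : ∀ n, wt x n • cutDiff hV n x = 0 := by
    intro n
    simp [wt, hx]
  simp only [this, tsum_zero, add_zero]

theorem norm_retr_sub_le (x : L1 V) : ‖retr hV x - x‖ ≤ 3 * ‖sumCLM V x‖ := by
  unfold retr
  rw [add_sub_cancel_left]
  have h1 : ∀ n, ‖wt x n • cutDiff hV n x‖ ≤ wt x n * (3 * ‖sumCLM V x‖) := by
    intro n
    rw [norm_smul, Real.norm_of_nonneg (wt_nonneg x n)]
    by_cases h0 : cl (rem x) ‖sumCLM V x‖ n = 0
    · simp [wt, h0]
    · have h2 := cl_ne_zero (rem_antitone x) h0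
      have h3 := norm_cutDiff_le' hV n x
      rw [← rem_eq] at h3
      exact mul_le_mul_of_nonneg_left (by linarith) (wt_nonneg x n)
  have hs : Summable fun n => wt x n * (3 * ‖sumCLM V x‖) := (hasSum_wt x).summable.mul_right _
  refine (tsum_of_norm_bounded hs.hasSum h1).trans ?_
  rw [tsum_mul_right]
  have := tsum_wt_le x
  have h4 : 0 ≤ 3 * ‖sumCLM V x‖ := by positivity
  nlinarith

/-- total variation of the weights -/
theorem wt_tv {x y : L1 V} (hy : 0 < ‖sumCLM V y‖) (hyx : ‖sumCLM V y‖ ≤ ‖sumCLM V x‖) (N : ℕ) :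
    ∑ n ∈ Finset.range N, |wt x n - wt y n| ≤ 4 * ‖x - y‖ / ‖sumCLM V x‖ := by
  set ρ := ‖sumCLM V x‖ with hρ
  set ρ' := ‖sumCLM V y‖ with hρ'
  have hρ0 : 0 < ρ := lt_of_lt_of_le hy hyx
  have e1 := tv_general (a := fun k => ‖x k‖) (b := fun k => ‖y k‖) (fun _ => norm_nonneg _)
    (fun _ => norm_nonneg _) (L1.summable_norm x) (L1.summable_norm y) ρ N
  have e2 := tv_scale (T := rem y) (rem_antitone y) hy hyx (rem_nonneg y) N
  have e3 : ∑' k, |‖x k‖ - ‖y k‖| ≤ ‖x - y‖ := by
    rw [L1.norm_eq (x - y)]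
    have hle : ∀ k, |‖x k‖ - ‖y k‖| ≤ ‖(x - y) k‖ := fun k => abs_norm_sub_norm_le _ _
    exact Summable.tsum_le_tsum hle
      (Summable.of_nonneg_of_le (fun _ => abs_nonneg _) hle (L1.summable_norm (x - y)))
      (L1.summable_norm (x - y))
  have e4 : ρ - ρ' ≤ ‖x - y‖ := by
    have h1 : ρ - ρ' ≤ ‖sumCLM V x - sumCLM V y‖ := norm_sub_norm_le _ _
    rw [← map_sub] at h1
    exact h1.trans (norm_sumCLM_le _)
  have e5 : ∑ n ∈ Finset.range N, |cl (rem x) ρ n / ρ - cl (rem y) ρ n / ρ| ≤
      2 * ‖x - y‖ / ρ := by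
    have : ∀ n, |cl (rem x) ρ n / ρ - cl (rem y) ρ n / ρ| =
        |cl (rem x) ρ n - cl (rem y) ρ n| / ρ := by
      intro n
      rw [← sub_div, abs_div, abs_of_pos hρ0]
    simp only [this, ← Finset.sum_div]
    gcongr
    exact e1.trans (by linarith)
  calc ∑ n ∈ Finset.range N, |wt x n - wt y n|
      ≤ ∑ n ∈ Finset.range N, (|cl (rem x) ρ n / ρ - cl (rem y) ρ n / ρ| +
          |cl (rem y) ρ n / ρ - cl (rem y) ρ' n / ρ'|) :=
        Finset.sum_le_sum fun n _ => abs_sub_le _ _ _
    _ ≤ 2 * ‖x - y‖ / ρ + 2 * (ρ - ρ') / ρ := by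
        rw [Finset.sum_add_distrib]
        exact add_le_add e5 e2
    _ ≤ 2 * ‖x - y‖ / ρ + 2 * ‖x - y‖ / ρ := by gcongr
    _ = 4 * ‖x - y‖ / ρ := by ring

theorem dist_retr_aux {x y : L1 V} (hyx : ‖sumCLM V y‖ ≤ ‖sumCLM V x‖) :
    ‖retr hV x - retr hV y‖ ≤ 17 * ‖x - y‖ := by
  set ρ := ‖sumCLM V x‖ with hρ
  set ρ' := ‖sumCLM V y‖ with hρ'
  set d := ‖x - y‖ with hd
  have hd0 : 0 ≤ d := norm_nonneg _
  have hρ'0 : 0 ≤ ρ' := norm_nonneg _
  by_cases hc : 3 * ρ ≤ 8 * d
  · have h1 := norm_retr_sub_le hV x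
    have h2 := norm_retr_sub_le hV y
    have h3 : retr hV x - retr hV y = (retr hV x - x) + (x - y) - (retr hV y - y) := by abel
    rw [h3]
    have h4 : ‖(retr hV x - x) + (x - y) - (retr hV y - y)‖ ≤
        ‖retr hV x - x‖ + ‖x - y‖ + ‖retr hV y - y‖ :=
      (norm_sub_le _ _).trans (by gcongr; exact norm_add_le _ _)
    linarith
  · push Not at hc
    have e4 : ρ - ρ' ≤ d := by
      have h1 : ρ - ρ' ≤ ‖sumCLM V x - sumCLM V y‖ := norm_sub_norm_le _ _
      rw [← map_sub] at h1
      exact h1.trans (norm_sumCLM_le _)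
    have hρ0 : 0 < ρ := by linarith
    have hy : 0 < ρ' := by linarith
    have hw : HasSum (fun n => wt x n) 1 := tsum_wt_of_pos hρ0
    -- decomposition
    have key : retr hV x - retr hV y = (x - y) + ∑' n, wt x n • cutDiff hV n (x - y) +
        ∑' n, (wt x n - wt y n) • cutDiff hV n y := by
      unfold retr
      have s1 := summable_wt_cut hV x x
      have s2 := summable_wt_cut hV x y
      have s3 := summable_wt_cut hV y y
      have t1 : ∑' n, wt x n • cutDiff hV n (x - y) =
          ∑' n, wt x n • cutDiff hV n x - ∑' n, wt x n • cutDiff hV n y := by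
        rw [← s1.tsum_sub s2]
        refine tsum_congr fun n => ?_
        rw [cutDiff_sub, smul_sub]
      have t2 : ∑' n, (wt x n - wt y n) • cutDiff hV n y =
          ∑' n, wt x n • cutDiff hV n y - ∑' n, wt y n • cutDiff hV n y := by
        rw [← s2.tsum_sub s3]
        refine tsum_congr fun n => ?_
        rw [sub_smul]
      rw [t1, t2]
      abel
    have b1 : ‖∑' n, wt x n • cutDiff hV n (x - y)‖ ≤ d := by
      have hs : HasSum (fun n => wt x n * d) (1 * d) := hw.mul_right _
      rw [one_mul] at hs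
      refine tsum_of_norm_bounded hs fun n => ?_
      rw [norm_smul, Real.norm_of_nonneg (wt_nonneg x n)]
      exact mul_le_mul_of_nonneg_left (norm_cutDiff_le hV n _) (wt_nonneg x n)
    have hsum : Summable fun n => |wt x n - wt y n| := by
      refine Summable.of_nonneg_of_le (fun _ => abs_nonneg _) (fun n => ?_)
        ((hasSum_wt x).summable.add (hasSum_wt y).summable)
      have h1 := wt_nonneg x n
      have h2 := wt_nonneg y n
      rw [abs_le]
      constructor <;> linarith
    have htv : ∑' n, |wt x n - wt y n| ≤ 4 * d / ρ :=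
      hsum.tsum_le_of_sum_range_le fun N => wt_tv hy hyx N
    have b2 : ‖∑' n, (wt x n - wt y n) • cutDiff hV n y‖ ≤ (4 * d / ρ) * (3 * ρ + 2 * d) := by
      have hs : HasSum (fun n => |wt x n - wt y n| * (3 * ρ + 2 * d))
          ((∑' n, |wt x n - wt y n|) * (3 * ρ + 2 * d)) := hsum.hasSum.mul_right _
      have h1 : ‖∑' n, (wt x n - wt y n) • cutDiff hV n y‖ ≤
          (∑' n, |wt x n - wt y n|) * (3 * ρ + 2 * d) := by
        refine tsum_of_norm_bounded hs fun n => ?_
        rw [norm_smul, Real.norm_eq_abs]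
        by_cases h0 : wt x n - wt y n = 0
        · simp [h0]
        · have h3 := norm_cutDiff_le' hV n y
          rw [← rem_eq] at h3
          have h4 : rem y (n + 1) ≤ ρ + d := by
            by_cases h5 : cl (rem y) ρ' n = 0
            · have h6 : cl (rem x) ρ n ≠ 0 := by
                intro h6
                apply h0
                simp only [wt]
                rw [← hρ, ← hρ', h5, h6]
                simp
              have h7 := cl_ne_zero (rem_antitone x) h6
              have h8 := rem_le_add x y (n + 1)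
              linarith
            · have h7 := cl_ne_zero (rem_antitone y) h5
              linarith
          exact mul_le_mul_of_nonneg_left (by linarith) (abs_nonneg _)
      refine h1.trans ?_
      exact mul_le_mul_of_nonneg_right htv (by positivity)
    have b3 : (4 * d / ρ) * (3 * ρ + 2 * d) ≤ 15 * d := by
      have h1 : (4 * d / ρ) * (3 * ρ + 2 * d) = 12 * d + 8 * d * (d / ρ) := by
        field_simp
        ring
      have h2 : d / ρ ≤ 3 / 8 := by
        rw [div_le_div_iff₀ hρ0 (by norm_num)]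
        linarith
      rw [h1]
      nlinarith
    rw [key]
    have h5 := norm_add_le ((x - y) + ∑' n, wt x n • cutDiff hV n (x - y))
      (∑' n, (wt x n - wt y n) • cutDiff hV n y)
    have h6 := norm_add_le (x - y) (∑' n, wt x n • cutDiff hV n (x - y))
    linarith

/-- The kernel of the sum map is a Lipschitz retract of the `l1`-sum. -/
theorem exists_retraction (hV : Monotone V) :
    ∃ r : L1 V → LinearMap.ker (sumCLM V : L1 V →ₗ[ℝ] Z), LipschitzWith 17 r ∧
      ∀ a : LinearMap.ker (sumCLM V : L1 V →ₗ[ℝ] Z), r a = a := by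
  refine ⟨fun x => ⟨retr hV x, ?_⟩, ?_, ?_⟩
  · rw [LinearMap.mem_ker]
    exact sumCLM_retr hV x
  · apply LipschitzWith.of_dist_le_mul
    intro x y
    rw [Subtype.dist_eq, dist_eq_norm, dist_eq_norm]
    change ‖retr hV x - retr hV y‖ ≤ 17 * ‖x - y‖
    rcases le_total ‖sumCLM V y‖ ‖sumCLM V x‖ with h | h
    · exact dist_retr_aux hV h
    · rw [norm_sub_rev, norm_sub_rev x y]
      exact dist_retr_aux hV h
  · intro a
    apply Subtype.ext
    exact retr_eq_self hV a.2

end Vale.Agent.P124.R2
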