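import Mathlib
import Vale.Agent.P124.R2.H124.Core
import Vale.Agent.P124.R2.helper477.Retract

open Filter Topology
open scoped NNReal ENNReal

namespace Vale.Agent.P124.R2

set_option linter.unusedSectionVars false

/-! ### The general part: a copy of the kernel that is complemented gives a lifting -/

section General

variable {Z : Type*} [NormedAddCommGroup Z] [NormedSpace ℝ Z] [CompleteSpace Z]
  {V : ℕ → Submodule ℝ Z}

theorem cutDiff_add (hV : Monotone V) (n : ℕ) (x y : L1 V) :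
    cutDiff hV n (x + y) = cutDiff hV n x + cutDiff hV n y := by
  have := cutDiff_sub hV n (x + y) y
  rw [add_sub_cancel_right] at this
  rw [this, sub_add_cancel]

theorem tendsto_cutDiff (hV : Monotone V) {x : L1 V} (hx : sumCLM V x = 0) :
    Tendsto (fun n => cutDiff hV n x) atTop (𝓝 0) := by
  have h1 : Tendsto (fun n => ∑ k ∈ Finset.range (n + 1), ‖x k‖) atTop (𝓝 ‖x‖) := by
    have := (L1.summable_norm x).hasSum.tendsto_sum_nat
    rw [← L1.norm_eq] at this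
    exact this.comp (tendsto_add_atTop_nat 1)
  refine squeeze_zero_norm (a := fun n => 2 * (‖x‖ - ∑ k ∈ Finset.range (n + 1), ‖x k‖))
    (fun n => ?_) ?_
  · have := norm_cutDiff_le' hV n x
    rwa [hx, norm_zero, zero_add] at this
  · have := (h1.const_sub ‖x‖).const_mul 2
    simpa using this

theorem add_cutDiff_mem (hV : Monotone V) (n : ℕ) (x : L1 V) :
    x + cutDiff hV n x ∈ LinearMap.ker (sumCLM V : L1 V →ₗ[ℝ] Z) := by
  rw [LinearMap.mem_ker]
  change sumCLM V (x + cutDiff hV n x) = 0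
  rw [map_add, sumCLM_cutDiff, add_neg_cancel]

/-- If the kernel of the sum map is isomorphic to a complemented subspace, then it is
complemented, with a projection `1 - R`. -/
theorem exists_lift (hV : Monotone V) [∀ k, FiniteDimensional ℝ (V k)]
    (S : LinearMap.ker (sumCLM V : L1 V →ₗ[ℝ] Z) →L[ℝ] L1 V)
    (Q : L1 V →L[ℝ] LinearMap.ker (sumCLM V : L1 V →ₗ[ℝ] Z)) (hQS : ∀ a, Q (S a) = a) :
    ∃ R : L1 V →L[ℝ] L1 V, (∀ x, sumCLM V x = 0 → R x = 0) ∧
      ∀ x, sumCLM V (R x) = sumCLM V x := by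
  let Φ : ℕ → L1 V → L1 V := fun n x => S ⟨x + cutDiff hV n x, add_cutDiff_mem hV n x⟩
  have hsub : ∀ n x y, Φ n x - Φ n y = Φ n (x - y) := by
    intro n x y
    simp only [Φ]
    rw [← map_sub]
    congr 1
    apply Subtype.ext
    change x + cutDiff hV n x - (y + cutDiff hV n y) = (x - y) + cutDiff hV n (x - y)
    rw [cutDiff_sub]
    abel
  have hadd : ∀ n x y, Φ n (x + y) = Φ n x + Φ n y := by
    intro n x y
    simp only [Φ]
    rw [← map_add]
    congr 1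
    apply Subtype.ext
    change (x + y) + cutDiff hV n (x + y) = x + cutDiff hV n x + (y + cutDiff hV n y)
    rw [cutDiff_add]
    abel
  have hbd : ∀ n x, ‖Φ n x‖ ≤ ‖S‖ * 2 * ‖x‖ := by
    intro n x
    refine (S.le_opNorm _).trans ?_
    rw [mul_assoc]
    refine mul_le_mul_of_nonneg_left ?_ S.opNorm_nonneg
    change ‖x + cutDiff hV n x‖ ≤ 2 * ‖x‖
    have h1 := norm_add_le x (cutDiff hV n x)
    have h2 := norm_cutDiff_le hV n x
    linarith
  have h0 : ∀ n, Φ n 0 = 0 := by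
    intro n
    have := hadd n 0 0
    rw [add_zero] at this
    simpa using this
  obtain ⟨T, -, hT⟩ := exists_ultralimit (E := fun k => V k) Φ (Real.toNNReal (‖S‖ * 2))
    (‖S‖ * 2) (fun n => by
      apply LipschitzWith.of_dist_le_mul
      intro x y
      rw [dist_eq_norm, dist_eq_norm, hsub]
      refine (hbd n _).trans ?_
      gcongr
      exact Real.le_coe_toNNReal _) h0
    (fun x => Eventually.of_forall fun n => hbd n x)
    (fun x y => by
      have : ∀ n, Φ n (x + y) - Φ n x - Φ n y = 0 := by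
        intro n
        rw [hadd]
        abel
      simp only [this]
      exact tendsto_const_nhds)
  have hTS : ∀ a : LinearMap.ker (sumCLM V : L1 V →ₗ[ℝ] Z), T a = S a := by
    intro a
    have ha : sumCLM V (a : L1 V) = 0 := a.2
    have h1 : Tendsto (fun n => Φ n a) atTop (𝓝 (S a)) := by
      have h2 := tendsto_cutDiff hV ha
      have h3 : Tendsto (fun n => (⟨(a : L1 V) + cutDiff hV n a, add_cutDiff_mem hV n a⟩ :
          LinearMap.ker (sumCLM V : L1 V →ₗ[ℝ] Z))) atTop (𝓝 a) := by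
        rw [tendsto_subtype_rng]
        simpa using h2.const_add (a : L1 V)
      exact (S.continuous.tendsto a).comp h3
    refine lp.ext (funext fun k => ?_)
    have h4 : Tendsto (fun n => Φ n a k) (hyperfilter ℕ) (𝓝 (S a k)) :=
      (((lp.lipschitzWith_one_eval 1 k).continuous.tendsto _).comp h1).mono_left
        Nat.hyperfilter_le_atTop
    exact tendsto_nhds_unique (hT a k) h4
  refine ⟨ContinuousLinearMap.id ℝ _ -
    (LinearMap.ker (sumCLM V : L1 V →ₗ[ℝ] Z)).subtypeL.comp (Q.comp T), fun x hx => ?_,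
    fun x => ?_⟩
  · change x - (Q (T x) : L1 V) = 0
    have h1 := hTS ⟨x, hx⟩
    change T x = S ⟨x, hx⟩ at h1
    rw [h1, hQS, sub_self]
  · change sumCLM V (x - (Q (T x) : L1 V)) = sumCLM V x
    have h2 : sumCLM V (Q (T x) : L1 V) = 0 := (Q (T x)).2
    rw [map_sub, h2, sub_zero]

end General

/-! ### The concrete example -/

/-- The Hilbert space `l2`. -/
abbrev Hl2 : Type := lp (fun _ : ℕ => ℝ) 2

/-- The `k`-dimensional coordinate subspace of `l2`. -/
def Vk (k : ℕ) : Submodule ℝ Hl2 where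
  carrier := {z | ∀ i, k ≤ i → z i = 0}
  add_mem' := by
    intro a b ha hb i hi
    rw [lp.coeFn_add, Pi.add_apply, ha i hi, hb i hi, add_zero]
  zero_mem' := by
    intro i _
    rfl
  smul_mem' := by
    intro c a ha i hi
    rw [lp.coeFn_smul, Pi.smul_apply, ha i hi, smul_zero]

theorem mem_Vk {k : ℕ} {z : Hl2} : z ∈ Vk k ↔ ∀ i, k ≤ i → z i = 0 := Iff.rfl

theorem Vk_mono : Monotone Vk := fun _ _ h _ hz i hi => hz i (h.trans hi)

instance (k : ℕ) : FiniteDimensional ℝ (Vk k) := by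
  let f : Vk k →ₗ[ℝ] (Fin k → ℝ) :=
    { toFun := fun z i => (z : Hl2) i
      map_add' := by
        intro x y
        ext i
        rfl
      map_smul' := by
        intro c x
        ext i
        rfl }
  refine FiniteDimensional.of_injective f ?_
  intro x y hxy
  ext i
  by_cases hi : i < k
  · exact congrFun hxy ⟨i, hi⟩
  · rw [mem_Vk.1 x.2 i (not_lt.1 hi), mem_Vk.1 y.2 i (not_lt.1 hi)]

theorem single_mem_Vk (i : ℕ) (c : ℝ) : (lp.single 2 i c : Hl2) ∈ Vk (i + 1) := by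
  rw [mem_Vk]
  intro j hj
  rw [lp.single_apply_ne _ _ _ (by omega)]

/-- the vectors `w i` of the `l1`-sum: `e_i` placed in the block `i + 1` -/
noncomputable def wv (i : ℕ) : L1 Vk := lp.single 1 (i + 1) ⟨lp.single 2 i 1, single_mem_Vk i 1⟩

theorem sumCLM_wv (i : ℕ) : sumCLM Vk (wv i) = lp.single 2 i 1 := by
  rw [wv, sumCLM_single]

theorem smul_single_one (c : ℝ) (i : ℕ) :
    c • (lp.single 2 i 1 : Hl2) = lp.single 2 i c := by
  rw [← lp.single_smul, smul_eq_mul, mul_one]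

theorem norm_sum_smul (F : Finset ℕ) (c : ℕ → ℝ) :
    ‖sumCLM Vk (∑ i ∈ F, c i • wv i)‖ ^ 2 = ∑ i ∈ F, c i ^ 2 := by
  have h1 : sumCLM Vk (∑ i ∈ F, c i • wv i) = ∑ i ∈ F, lp.single 2 i (c i) := by
    rw [map_sum]
    refine Finset.sum_congr rfl fun i _ => ?_
    rw [map_smul, sumCLM_wv, smul_single_one]
  have h2 := lp.norm_sum_single (E := fun _ : ℕ => ℝ) (p := 2) (by simp) c F
  rw [h1]
  simpa using h2

theorem bound_R {R : L1 Vk →L[ℝ] L1 Vk} (hR : ∀ x, sumCLM Vk x = 0 → R x = 0) (F : Finset ℕ)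
    (c : ℕ → ℝ) :
    ‖R (∑ i ∈ F, c i • wv i)‖ ≤ ‖R‖ * ‖sumCLM Vk (∑ i ∈ F, c i • wv i)‖ := by
  set x := ∑ i ∈ F, c i • wv i with hx
  have hmem : sumCLM Vk x ∈ Vk (F.sup id + 1) := by
    rw [hx, map_sum]
    refine Submodule.sum_mem _ fun i hi => ?_
    rw [map_smul, sumCLM_wv]
    refine Submodule.smul_mem _ _ (Vk_mono ?_ (single_mem_Vk i 1))
    have : i ≤ F.sup id := Finset.le_sup (f := id) hi
    omega
  have h1 : R x = R (lp.single 1 (F.sup id + 1) ⟨sumCLM Vk x, hmem⟩) := by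
    rw [← sub_eq_zero, ← map_sub]
    apply hR
    rw [map_sub, sumCLM_single, sub_self]
  rw [h1]
  refine (R.le_opNorm _).trans ?_
  rw [lp.norm_single (by simp)]
  rfl

theorem sum_coord_sq_le {R : L1 Vk →L[ℝ] L1 Vk} (hR : ∀ x, sumCLM Vk x = 0 → R x = 0)
    (k m : ℕ) (F : Finset ℕ) :
    ∑ i ∈ F, ((R (wv i) k : Hl2) m) ^ 2 ≤ ‖R‖ ^ 2 := by
  set c : ℕ → ℝ := fun i => (R (wv i) k : Hl2) m with hc
  set s : ℝ := ∑ i ∈ F, c i ^ 2 with hs
  have hs0 : 0 ≤ s := Finset.sum_nonneg fun i _ => sq_nonneg _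
  have h1 : ((R (∑ i ∈ F, c i • wv i) k : Vk k) : Hl2) m = s := by
    rw [map_sum, lp.coeFn_sum, Finset.sum_apply, Submodule.coe_sum, lp.coeFn_sum,
      Finset.sum_apply]
    refine Finset.sum_congr rfl fun i _ => ?_
    rw [map_smul, lp.coeFn_smul, Pi.smul_apply, Submodule.coe_smul, lp.coeFn_smul,
      Pi.smul_apply, smul_eq_mul, sq]
  have h2 : |s| ≤ ‖R (∑ i ∈ F, c i • wv i)‖ := by
    rw [← h1, ← Real.norm_eq_abs]
    refine (lp.norm_apply_le_norm two_ne_zero _ _).trans ?_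
    exact lp.norm_apply_le_norm one_ne_zero (R (∑ i ∈ F, c i • wv i)) k
  have h3 := h2.trans (bound_R hR F c)
  have h4 : s ^ 2 ≤ ‖R‖ ^ 2 * s := by
    calc s ^ 2 = |s| ^ 2 := (sq_abs s).symm
      _ ≤ (‖R‖ * ‖sumCLM Vk (∑ i ∈ F, c i • wv i)‖) ^ 2 := by gcongr
      _ = ‖R‖ ^ 2 * s := by rw [mul_pow, norm_sum_smul]
  rcases hs0.eq_or_lt with h | h
  · rw [← h]; positivity
  · nlinarith

theorem coord_tendsto {R : L1 Vk →L[ℝ] L1 Vk} (hR : ∀ x, sumCLM Vk x = 0 → R x = 0) (k : ℕ) :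
    Tendsto (fun i => R (wv i) k) atTop (𝓝 0) := by
  have h1 : ∀ m, Tendsto (fun i => ((R (wv i) k : Hl2) m) ^ 2) atTop (𝓝 0) := by
    intro m
    have : Summable fun i => ((R (wv i) k : Hl2) m) ^ 2 :=
      summable_of_sum_le (fun i => sq_nonneg _) (sum_coord_sq_le hR k m)
    exact this.tendsto_atTop_zero
  have h2 : ∀ v : Vk k, ‖v‖ ^ 2 = ∑ m ∈ Finset.range k, ((v : Hl2) m) ^ 2 := by
    intro v
    have h3 := lp.norm_rpow_eq_tsum (E := fun _ : ℕ => ℝ) (p := 2) (by simp) (v : Hl2)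
    have h4 : ∑' m, ‖(v : Hl2) m‖ ^ (2 : ℝ≥0∞).toReal =
        ∑ m ∈ Finset.range k, ‖(v : Hl2) m‖ ^ (2 : ℝ≥0∞).toReal := by
      refine tsum_eq_sum fun m hm => ?_
      rw [mem_Vk.1 v.2 m (by simpa using hm)]
      simp
    rw [h4] at h3
    simpa using h3
  have h5 : Tendsto (fun i => ‖R (wv i) k‖ ^ 2) atTop (𝓝 0) := by
    simp only [h2]
    have := tendsto_finsetSum (Finset.range k) fun m _ => h1 m
    simpa using this
  rw [tendsto_zero_iff_norm_tendsto_zero]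
  have h6 := h5.sqrt
  simpa using h6

theorem glide {R : L1 Vk →L[ℝ] L1 Vk} (hR : ∀ x, sumCLM Vk x = 0 → R x = 0)
    (hR' : ∀ x, sumCLM Vk (R x) = sumCLM Vk x) (s : L1 Vk) :
    ∀ᶠ i in atTop, ‖s‖ + 1 / 2 ≤ ‖s + R (wv i)‖ := by
  by_contra hcon
  rw [not_eventually] at hcon
  set P : Set ℕ := {i | ¬ ‖s‖ + 1 / 2 ≤ ‖s + R (wv i)‖} with hP
  have hne : (atTop ⊓ 𝓟 P : Filter ℕ).NeBot := by
    rw [← frequently_mem_iff_neBot]
    exact hcon
  have hf : ∀ᶠ i in (atTop ⊓ 𝓟 P : Filter ℕ), ‖s + R (wv i)‖ ≤ ‖s‖ + 1 / 2 := by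
    refine eventually_inf_principal.2 (Eventually.of_forall fun i hi => ?_)
    exact (not_le.1 hi).le
  have hlim : ∀ k, Tendsto (fun i => (s + R (wv i)) k) (atTop ⊓ 𝓟 P) (𝓝 (s k)) := by
    intro k
    have := ((coord_tendsto hR k).mono_left (inf_le_left (b := 𝓟 P))).const_add (s k)
    rw [add_zero] at this
    exact this
  have hb := lp1_brezis_lieb hf hlim (by norm_num : (0 : ℝ) < 1 / 4)
  obtain ⟨i, hi⟩ := hb.exists
  rw [add_sub_cancel_left] at hi
  have h1 : (1 : ℝ) ≤ ‖R (wv i)‖ := by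
    have h2 := norm_sumCLM_le (R (wv i))
    rw [hR', sumCLM_wv, lp.norm_single (by simp)] at h2
    simpa using h2
  linarith

/-- The kernel of the sum map `(⊕ l2^k)_1 → l2` is not isomorphic to a complemented subspace. -/
theorem ker_not_complemented :
    ¬ ∃ (S : LinearMap.ker (sumCLM Vk : L1 Vk →ₗ[ℝ] Hl2) →L[ℝ] L1 Vk)
      (Q : L1 Vk →L[ℝ] LinearMap.ker (sumCLM Vk : L1 Vk →ₗ[ℝ] Hl2)), ∀ a, Q (S a) = a := by
  rintro ⟨S, Q, hQS⟩
  obtain ⟨R, hR, hR'⟩ := exists_lift Vk_mono S Q hQS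
  have h1 : ∀ N : ℕ, ∃ F : Finset ℕ, F.card = N ∧ (N : ℝ) / 2 ≤ ‖R (∑ i ∈ F, (1 : ℝ) • wv i)‖ := by
    intro N
    induction N with
    | zero => exact ⟨∅, rfl, by simp⟩
    | succ N ih =>
      obtain ⟨F, hF, hN⟩ := ih
      have h2 := glide hR hR' (R (∑ i ∈ F, (1 : ℝ) • wv i))
      obtain ⟨i, hi, hiF⟩ := (h2.and (eventually_gt_atTop (F.sup id))).exists
      have hni : i ∉ F := by
        intro hmem
        have : i ≤ F.sup id := Finset.le_sup (f := id) hmem
        omega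
      refine ⟨insert i F, by rw [Finset.card_insert_of_notMem hni, hF], ?_⟩
      rw [Finset.sum_insert hni, one_smul, map_add, add_comm (R (wv i))]
      push_cast
      linarith
  obtain ⟨N, hN⟩ := exists_nat_gt (4 * ‖R‖ ^ 2)
  obtain ⟨F, hF, hFN⟩ := h1 N
  have h3 := hFN.trans (bound_R hR F fun _ => 1)
  have h4 := norm_sum_smul F fun _ => 1
  simp only [one_pow, Finset.sum_const, hF, nsmul_eq_mul, mul_one] at h4
  have h5 : ((N : ℝ) / 2) ^ 2 ≤ ‖R‖ ^ 2 * N := by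
    calc ((N : ℝ) / 2) ^ 2 ≤ (‖R‖ * ‖sumCLM Vk (∑ i ∈ F, (1 : ℝ) • wv i)‖) ^ 2 := by gcongr
      _ = ‖R‖ ^ 2 * N := by rw [mul_pow, h4]
  have h6 : (0 : ℝ) < N := lt_of_le_of_lt (by positivity) hN
  nlinarith

/-- Sharpness: the Lipschitz constant in the theorem cannot be arbitrary. -/
theorem exists_lipschitz_retract_not_complemented :
    ∃ (E : ℕ → Type) (_ : ∀ k, NormedAddCommGroup (E k)) (_ : ∀ k, NormedSpace ℝ (E k))
      (_ : ∀ k, FiniteDimensional ℝ (E k)) (A : Submodule ℝ (lp E 1)),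
      IsClosed (A : Set (lp E 1)) ∧
      (∃ r : lp E 1 → A, LipschitzWith 17 r ∧ ∀ a : A, r a = a) ∧
      ¬ ∃ (S : A →L[ℝ] lp E 1) (Q : lp E 1 →L[ℝ] A), ∀ a, Q (S a) = a := by
  refine ⟨fun k => Vk k, inferInstance, inferInstance, inferInstance,
    LinearMap.ker (sumCLM Vk : L1 Vk →ₗ[ℝ] Hl2), ?_, ?_, ?_⟩
  · exact (sumCLM Vk).isClosed_ker
  · exact exists_retraction Vk_mono
  · exact ker_not_complemented

end Vale.Agent.P124.R2
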